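import Vale.Agent.P153.F.Top.Stmt

/-!
P153-F, top block: the law with free boundary values as a measure on the heights; vertices inside
a set; finite sums.
-/

namespace Vale.Agent.P153.F.Top

open Filter Topology Set MeasureTheory
open Vale.Agent.P145.PT Vale.Agent.P153

theorem free_nonempty (I U : Finset (ℤ × ℤ)) : (FreeF I U).Nonempty := by
  refine ⟨fun _ => 1, ?_⟩
  rw [mem_FreeF]
  exact ⟨⟨fun _ => odd_one, fun x y _ => by simp⟩, fun x _ => by simp, fun x _ => rfl⟩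

theorem ze_eq (I : Finset (ℤ × ℤ)) (A : Om → ℝ) :
    ze I A = (∑ h ∈ FreeF I (clo I), A (vh I h)) / ((FreeF I (clo I)).card : ℝ) := rfl

theorem exists_meas (I : Finset (ℤ × ℤ)) :
    ∃ μ : Measure Om, Mom μ ∧ ∀ A : Om → ℝ, ∫ ω, A ω ∂μ = ze I A := by
  classical
  set T := FreeF I (clo I) with hT
  set Z : ℝ := (T.card : ℝ) with hZd
  have hZ : 0 < Z := by
    have : 0 < T.card := (free_nonempty I (clo I)).card_pos
    rw [hZd]
    exact_mod_cast this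
  have hw : 0 ≤ 1 / Z := by positivity
  have hint : ∀ (A : Om → ℝ) (x : Hg),
      Integrable A (ENNReal.ofReal (1 / Z) • Measure.dirac (vh I x)) :=
    fun A x => (integrable_dirac (by simp)).smul_measure ENNReal.ofReal_ne_top
  refine ⟨∑ x ∈ T, ENNReal.ofReal (1 / Z) • Measure.dirac (vh I x), ⟨⟨?_⟩, ?_⟩, ?_⟩
  · rw [Measure.coe_finsetSum, Finset.sum_apply]
    simp only [Measure.smul_apply, measure_univ, smul_eq_mul, mul_one]
    rw [← ENNReal.ofReal_sum_of_nonneg (fun x _ => hw), Finset.sum_const, nsmul_eq_mul, ← hZd,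
      mul_one_div_cancel hZ.ne', ENNReal.ofReal_one]
  · intro v
    exact integrable_finsetSum_measure.2 fun x _ => hint _ x
  · intro A
    rw [integral_finsetSum_measure fun x _ => hint A x]
    have h1 : ∀ x ∈ T, ∫ ω, A ω ∂(ENNReal.ofReal (1 / Z) • Measure.dirac (vh I x)) =
        A (vh I x) / Z := by
      intro x _
      rw [integral_smul_measure, integral_dirac, ENNReal.toReal_ofReal hw, smul_eq_mul]
      ring
    rw [Finset.sum_congr rfl h1, ← Finset.sum_div, ze_eq]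

/-- The linear coordinates. -/
theorem tl_eq (f : ℝ × ℝ → ℝ) (δ : ℝ) (v : ℤ × ℤ) :
    tl f (δ * v.1, δ * v.2) = √3 / 2 * f (dp δ v) := by
  unfold tl dp
  congr 2
  ext <;> simp only <;> ring

theorem lat_finite {δ : ℝ} (hδ : 0 < δ) (R : ℝ) :
    {v : ℤ × ℤ | dp δ v ∈ Metric.ball (0 : ℝ × ℝ) R}.Finite := by
  refine (Set.finite_Icc ((-⌈3 * R / δ⌉, -⌈3 * R / δ⌉) : ℤ × ℤ)
    (⌈3 * R / δ⌉, ⌈3 * R / δ⌉)).subset ?_
  intro v hv
  have hv' : max |δ * ((v.1 : ℝ) + v.2 / 2)| |δ * (√3 / 2 * v.2)| < R := by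
    have := mem_ball_zero_iff.1 hv
    rwa [dp, Prod.norm_mk, Real.norm_eq_abs, Real.norm_eq_abs] at this
  have hs : (1.7 : ℝ) < √3 := by
    rw [Real.lt_sqrt (by norm_num)]; norm_num
  have h1 := (le_max_left _ _).trans_lt hv'
  have h2 := (le_max_right _ _).trans_lt hv'
  have h3 : δ * |(v.2 : ℝ)| < 2 * R := by
    rw [abs_mul, abs_mul, abs_of_pos hδ, abs_of_pos (by positivity : (0 : ℝ) < √3 / 2)] at h2
    nlinarith [abs_nonneg (v.2 : ℝ), mul_nonneg hδ.le (abs_nonneg (v.2 : ℝ))]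
  have h4 : δ * |(v.1 : ℝ)| < 3 * R := by
    rw [abs_mul, abs_of_pos hδ] at h1
    have h5 : |(v.1 : ℝ)| ≤ |(v.1 : ℝ) + v.2 / 2| + |(v.2 : ℝ)| / 2 := by
      have : (v.1 : ℝ) = (v.1 + v.2 / 2) - v.2 / 2 := by ring
      calc |(v.1 : ℝ)| = |((v.1 : ℝ) + v.2 / 2) - v.2 / 2| := by rw [← this]
        _ ≤ |(v.1 : ℝ) + v.2 / 2| + |(v.2 : ℝ) / 2| := abs_sub _ _
        _ = _ := by rw [abs_div, abs_two]
    have h6 := mul_le_mul_of_nonneg_left h5 hδ.le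
    have h7 : 0 ≤ δ * |(v.2 : ℝ)| := by positivity
    have h8 : δ * (|(v.1 : ℝ) + v.2 / 2| + |(v.2 : ℝ)| / 2) =
        δ * |(v.1 : ℝ) + v.2 / 2| + δ * |(v.2 : ℝ)| / 2 := by ring
    linarith
  have h3' : δ * |(v.2 : ℝ)| < 3 * R := by
    have : 0 ≤ δ * |(v.2 : ℝ)| := by positivity
    linarith
  have key : ∀ a : ℤ, δ * |(a : ℝ)| < 3 * R → -⌈3 * R / δ⌉ ≤ a ∧ a ≤ ⌈3 * R / δ⌉ := by
    intro a ha
    have h1 : |(a : ℝ)| < 3 * R / δ := by
      rw [lt_div_iff₀ hδ]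
      linarith
    have h2 : |(a : ℝ)| ≤ (⌈3 * R / δ⌉ : ℝ) := h1.le.trans (Int.le_ceil _)
    have h3 : |a| ≤ ⌈3 * R / δ⌉ := by exact_mod_cast h2
    exact abs_le.1 h3
  obtain ⟨a1, a2⟩ := key v.1 h4
  obtain ⟨b1, b2⟩ := key v.2 h3'
  exact ⟨⟨a1, b1⟩, ⟨a2, b2⟩⟩

theorem Vs_finite {δ : ℝ} (hδ : 0 < δ) {D : Set (ℝ × ℝ)} (hb : Bornology.IsBounded D) :
    {v : ℤ × ℤ | Metric.closedBall (dp δ v) (2 * δ) ⊆ D}.Finite := by
  obtain ⟨R, hR⟩ := hb.subset_ball (0 : ℝ × ℝ)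
  exact (lat_finite hδ R).subset fun v hv =>
    hR (hv (Metric.mem_closedBall_self (by positivity)))

theorem mem_Vs {δ : ℝ} (hδ : 0 < δ) {D : Set (ℝ × ℝ)} (hb : Bornology.IsBounded D)
    {v : ℤ × ℤ} : v ∈ Vs δ D ↔ Metric.closedBall (dp δ v) (2 * δ) ⊆ D := by
  unfold Vs
  rw [dif_pos (Vs_finite hδ hb), Set.Finite.mem_toFinset]
  rfl

theorem Vs_mono {δ : ℝ} (hδ : 0 < δ) {D D' : Set (ℝ × ℝ)} (h : D ⊆ D')
    (hb : Bornology.IsBounded D') : Vs δ D ⊆ Vs δ D' := by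
  intro f hf
  rw [mem_Vs hδ (hb.subset h)] at hf
  rw [mem_Vs hδ hb]
  exact hf.trans h

theorem hv_eq_hB {δ R : ℝ} (hδ : 0 < δ) : ∃ B : Finset (ℤ × ℤ), ∀ f : ℝ × ℝ → ℝ,
    (∀ z, f z ≠ 0 → z ∈ Metric.ball (0 : ℝ × ℝ) R) → ∀ ω, hv δ f ω = hB B δ f ω := by
  refine ⟨(lat_finite hδ R).toFinset, fun f hf ω => ?_⟩
  unfold hv hB
  rw [finsum_eq_sum_of_support_subset]
  intro v hv
  rw [Finset.mem_coe, Set.Finite.mem_toFinset]
  refine hf _ ?_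
  have h1 := right_ne_zero_of_mul hv
  rw [tl_eq] at h1
  exact right_ne_zero_of_mul h1

end Vale.Agent.P153.F.Top
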