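import Vale.Agent.P153.F.Dom.Stmt
import Vale.Agent.P153.F.Top.Squeeze
import Vale.Agent.P153.GFF.Weights

/-!
P153-F, top block: the convergence in law of the fields in Jordan domains, from the convergence of
the moments (`S_key`).
-/

namespace Vale.Agent.P153.F.Top

open Filter Topology Set MeasureTheory ProbabilityTheory
open Vale.Agent.P145.PT Vale.Agent.P153
open Vale.Agent.P153.F.Dom (JordanDomain Approx Conv law fld region inner S_law S_in S_out S_fld
  corners pt)

/-! ### Domination of polynomials in the heights -/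

theorem Pol.mul' {P : ℝ → Prop} {f g : Om → ℝ} (hf : Pol P f) (hg : Pol P g) :
    Pol P (fun ω => f ω * g ω) := by
  induction hf with
  | mon l =>
    induction l with
    | nil => exact hg.of_eq fun ω => by simp
    | cons v l ih => exact (ih.cons v).of_eq fun ω => by simp; ring
  | zero => exact Pol.zero.of_eq fun ω => by simp
  | add _ _ h1 h2 => exact (h1.add h2).of_eq fun ω => by ring
  | smul c hc _ h1 => exact (h1.smul c hc).of_eq fun ω => by ring

/-- `A ± B` are in the cone. -/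
def Dm (A B : Om → ℝ) : Prop := Cone (fun ω => A ω + B ω) ∧ Cone (fun ω => A ω - B ω)

theorem Dm.of_eq {A B A' B' : Om → ℝ} (h : Dm A B) (hA : ∀ ω, A ω = A' ω) (hB : ∀ ω, B ω = B' ω) :
    Dm A' B' := by
  have h1 : A = A' := funext hA
  have h2 : B = B' := funext hB
  rwa [← h1, ← h2]

theorem Dm.mul {A B C E : Om → ℝ} (h1 : Dm A B) (h2 : Dm C E) :
    Dm (fun ω => A ω * C ω) (fun ω => B ω * E ω) :=
  ⟨(((Pol.mul' h1.1 h2.1).add (Pol.mul' h1.2 h2.2)).smul (1 / 2) (by norm_num)).of_eq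
      fun ω => by ring,
    (((Pol.mul' h1.1 h2.2).add (Pol.mul' h1.2 h2.1)).smul (1 / 2) (by norm_num)).of_eq
      fun ω => by ring⟩

theorem Dm.add {A B C E : Om → ℝ} (h1 : Dm A B) (h2 : Dm C E) :
    Dm (fun ω => A ω + C ω) (fun ω => B ω + E ω) :=
  ⟨(h1.1.add h2.1).of_eq fun ω => by ring, (h1.2.add h2.2).of_eq fun ω => by ring⟩

theorem Dm.smul {A B : Om → ℝ} (h1 : Dm A B) {c : ℝ} (hc : 0 ≤ c) :
    Dm (fun ω => c * A ω) (fun ω => c * B ω) :=
  ⟨(h1.1.smul c hc).of_eq fun ω => by ring, (h1.2.smul c hc).of_eq fun ω => by ring⟩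

theorem Dm.pow {A B : Om → ℝ} (h : Dm A B) (k : ℕ) :
    Dm (fun ω => A ω ^ k) (fun ω => B ω ^ k) := by
  induction k with
  | zero =>
    exact ⟨((Pol.one (P := fun c => 0 ≤ c)).add Pol.one).of_eq fun ω => by simp,
      Pol.zero.of_eq fun ω => by simp⟩
  | succ k ih => exact (ih.mul h).of_eq (fun ω => by ring) fun ω => by ring

/-- Difference of powers. -/
theorem Dm.sub_pow {Z X Y : Om → ℝ} {e : ℝ} (hX : Dm Z X) (hY : Dm Z Y)
    (hD : Dm (fun ω => e * Z ω) (fun ω => X ω - Y ω)) (k : ℕ) :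
    Dm (fun ω => k * e * Z ω ^ k) (fun ω => X ω ^ k - Y ω ^ k) := by
  induction k with
  | zero => exact ⟨Pol.zero.of_eq fun ω => by simp, Pol.zero.of_eq fun ω => by simp⟩
  | succ k ih =>
    refine (((hX.pow k).mul hD).add (ih.mul hY)).of_eq (fun ω => ?_) fun ω => ?_
    · push_cast; ring
    · ring

theorem Dm.ze_abs (hm : S_mono) (F : Finset (ℤ × ℤ)) {A B : Om → ℝ} (h : Dm A B) :
    |ze F B| ≤ ze F A := by
  have h1 := cone_ze_nonneg hm F h.1
  have h2 := cone_ze_nonneg hm F h.2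
  have e1 : ze F (fun ω => A ω + B ω) = ze F A + ze F B := ze_add' F _ _
  have e2 : ze F (fun ω => A ω - B ω) = ze F A - ze F B := by
    have h3 := ze_add' F A (fun ω => (-1) * B ω)
    rw [ze_smul'] at h3
    have h4 : (fun ω => A ω - B ω) = fun ω => A ω + (-1) * B ω := by funext ω; ring
    rw [h4, h3]; ring
  rw [e1] at h1
  rw [e2] at h2
  rw [abs_le]
  constructor <;> linarith

/-- Linear form in the heights. -/
noncomputable def lf (I : Finset (ℤ × ℤ)) (a : ℤ × ℤ → ℝ) (ω : Om) : ℝ := ∑ v ∈ I, a v * ω v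

theorem cone_lf {I : Finset (ℤ × ℤ)} {a : ℤ × ℤ → ℝ} (h : ∀ v ∈ I, 0 ≤ a v) : Cone (lf I a) :=
  Pol.sum I (fun v ω => a v * ω v) fun v hv =>
    ((Pol.mon (P := fun c => 0 ≤ c) [v]).of_eq (g := fun ω => ω v) fun ω => by simp).smul _ (h v hv)

theorem dm_lf {I : Finset (ℤ × ℤ)} {a c : ℤ × ℤ → ℝ} (h : ∀ v ∈ I, |a v| ≤ c v) :
    Dm (lf I c) (lf I a) := by
  refine ⟨(cone_lf (I := I) (a := fun v => c v + a v) fun v hv => ?_).of_eq fun ω => ?_,
    (cone_lf (I := I) (a := fun v => c v - a v) fun v hv => ?_).of_eq fun ω => ?_⟩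
  · have := (abs_le.1 (h v hv)).1
    linarith
  · unfold lf
    rw [← Finset.sum_add_distrib]
    exact Finset.sum_congr rfl fun v _ => by ring
  · have := (abs_le.1 (h v hv)).2
    linarith
  · unfold lf
    rw [← Finset.sum_sub_distrib]
    exact Finset.sum_congr rfl fun v _ => by ring

/-- Comparison of the moments of two linear forms. -/
theorem ze_lf_sub (hm : S_mono) (I : Finset (ℤ × ℤ)) {a b c : ℤ × ℤ → ℝ} {e : ℝ}
    (ha : ∀ v ∈ I, |a v| ≤ c v) (hb : ∀ v ∈ I, |b v| ≤ c v) (hab : ∀ v ∈ I, |a v - b v| ≤ e * c v)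
    (k : ℕ) :
    |ze I (fun ω => lf I a ω ^ k) - ze I (fun ω => lf I b ω ^ k)| ≤
      k * e * ze I (fun ω => lf I c ω ^ k) := by
  have hD : Dm (fun ω => e * lf I c ω) (fun ω => lf I a ω - lf I b ω) := by
    refine (dm_lf (I := I) (a := fun v => a v - b v) (c := fun v => e * c v) hab).of_eq
      (fun ω => ?_) fun ω => ?_
    · unfold lf
      rw [Finset.mul_sum]
      exact Finset.sum_congr rfl fun v _ => by ring
    · unfold lf
      rw [← Finset.sum_sub_distrib]
      exact Finset.sum_congr rfl fun v _ => by ring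
  have h := (Dm.sub_pow (dm_lf ha) (dm_lf hb) hD k).ze_abs hm I
  have e1 : ze I (fun ω => k * e * lf I c ω ^ k) = k * e * ze I (fun ω => lf I c ω ^ k) :=
    ze_smul' I _ _
  have e2 : ze I (fun ω => lf I a ω ^ k - lf I b ω ^ k) =
      ze I (fun ω => lf I a ω ^ k) - ze I (fun ω => lf I b ω ^ k) := by
    have h3 := ze_add' I (fun ω => lf I a ω ^ k) (fun ω => (-1) * lf I b ω ^ k)
    rw [ze_smul'] at h3
    have h4 : (fun ω => lf I a ω ^ k - lf I b ω ^ k) =
        fun ω => lf I a ω ^ k + (-1) * lf I b ω ^ k := by funext ω; ring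
    rw [h4, h3]; ring
  rwa [e1, e2] at h

theorem ze_congr {I : Finset (ℤ × ℤ)} {A B : Om → ℝ}
    (h : ∀ ω : Om, (∀ v, v ∉ I → ω v = 0) → A ω = B ω) : ze I A = ze I B := by
  unfold ze
  congr 1
  funext g
  refine h _ fun v hv => ?_
  unfold vh
  rw [if_neg hv]

theorem hv_eq_lf (δ : ℝ) (f : ℝ × ℝ → ℝ) {I : Finset (ℤ × ℤ)} {ω : Om}
    (h : ∀ v, v ∉ I → ω v = 0) :
    hv δ f ω = lf I (fun v => δ ^ 2 * tl f (δ * v.1, δ * v.2)) ω := by
  unfold hv lf
  rw [finsum_eq_sum_of_support_subset (s := I), Finset.mul_sum]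
  · exact Finset.sum_congr rfl fun v _ => by ring
  · intro v hv
    by_contra hn
    exact hv (by show ω v * _ = 0; rw [h v hn, zero_mul])

/-- A test function which is `1` on a compact set. -/
theorem exists_one {D : Set (ℝ × ℝ)} (hD : IsOpen D) (hb : Bornology.IsBounded D)
    {K : Set (ℝ × ℝ)} (hK : IsCompact K) (hKD : K ⊆ D) :
    ∃ χ : ℝ × ℝ → ℝ, TestOn D χ ∧ (∀ z, 0 ≤ χ z) ∧ ∀ z ∈ K, χ z = 1 := by
  obtain ⟨r, hr, hrK⟩ : ∃ r : ℝ, 0 < r ∧ ∀ z ∈ K, r ≤ dd D z := by
    rcases K.eq_empty_or_nonempty with he | hne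
    · exact ⟨1, one_pos, fun z hz => by rw [he] at hz; exact absurd hz (notMem_empty _)⟩
    · obtain ⟨z0, hz0, hmin⟩ := hK.exists_isMinOn hne (dd_cont D).continuousOn
      exact ⟨dd D z0, (dd_pos hD hb).2 (hKD hz0), fun z hz => hmin hz⟩
  obtain ⟨χ, hχs, hχ01, hχ0, hχ1⟩ := exists_cutoff D (show r / 2 < r by linarith)
  have hsub : tsupport χ ⊆ {x | r / 2 ≤ dd D x} := by
    refine closure_minimal ?_ (isClosed_le continuous_const (dd_cont D))
    intro x hx
    by_contra h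
    rw [mem_ofPred_eq, not_le] at h
    exact hx (hχ0 x h.le)
  have hsubD : tsupport χ ⊆ D := fun x hx => by
    have h1 : r / 2 ≤ dd D x := hsub hx
    exact (dd_pos hD hb).1 (by linarith)
  exact ⟨χ, ⟨hχs, Metric.isCompact_of_isClosed_isBounded (isClosed_tsupport _)
    (hb.subset hsubD), hsubD⟩, fun z => (hχ01 z).1, fun z hz => hχ1 z (hrK z hz)⟩

/-! ### The moments of the field -/

theorem tl_dp (f : ℝ × ℝ → ℝ) (δ : ℝ) (v : ℤ × ℤ) :
    tl f (δ * v.1, δ * v.2) = √3 / 2 * f (dp δ v) := by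
  unfold tl dp
  congr 2
  refine Prod.ext ?_ ?_
  · show δ * (v.1 : ℝ) + δ * v.2 / 2 = δ * (v.1 + v.2 / 2)
    ring
  · show √3 / 2 * (δ * (v.2 : ℝ)) = δ * (√3 / 2 * v.2)
    ring

/-- Convergence of the moments of the field. -/
theorem mom_fld {κ : ℝ} (hm : S_mono) (hlaw : S_law) (hin : S_in) (hout : S_out) (hfld : S_fld)
    {D : Set (ℝ × ℝ)} (hJ : JordanDomain D)
    (hkey : ∀ δ : ℕ → ℝ, (∀ n, 0 < δ n) → Tendsto δ atTop (𝓝 0) → S_key κ δ)
    {δ : ℕ → ℝ} {N : ℕ → ℕ} {p : ∀ n, ZMod (N n) → ℤ × ℤ} {S : ℕ → Finset ((ℤ × ℤ) × Bool)}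
    (hA : Approx D δ N p S) {φ : ℝ × ℝ → ℝ} (hφ : TestOn D φ) (k : ℕ) :
    Tendsto (fun n => ∫ h, fld (S n) (δ n) φ h ^ k ∂(law (p n) (S n))) atTop
      (𝓝 (gm (κ * V D φ) k)) := by
  have hJ' : Vale.Agent.P145.Dom.JordanDomain D := hJ
  have hop : IsOpen D := hJ'.isOpen
  have hb : Bornology.IsBounded D := hJ'.isBounded
  have hsq : ∀ ψ : ℝ × ℝ → ℝ, TestOn D ψ →
      Tendsto (fun n => ze (inner (p n) (S n)) (fun ω => hv (δ n) ψ ω ^ k)) atTop
        (𝓝 (gm (κ * V D ψ) k)) := fun ψ hψ =>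
    squeeze hm hA.pos (hkey δ hA.pos hA.lim) hJ'
      (fun D' _ hb' hD' => hin D δ N p S hA D' hb' hD')
      (fun D' ho' hb' hD' => hout D δ N p S hJ hA D' ho' hb' hD') hψ k
  obtain ⟨C, K, w, hK, hKD, hw⟩ := hfld D hop δ N p S hA φ hφ
  obtain ⟨χ, hχ, hχ0, hχ1⟩ := exists_one hop hb (hK.union hφ.2.1)
    (union_subset hKD hφ.2.2)
  obtain ⟨B, hB⟩ := hφ.cont.bounded_above_of_compact_support hφ.cs
  set M : ℝ := 2 / √3 * (|C| + √3 / 2 * |B|) with hM
  have h3 : (0 : ℝ) < √3 := by positivity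
  have hM0 : 0 ≤ M := by positivity
  set ψ : ℝ × ℝ → ℝ := fun z => M * χ z with hψ
  have hψT : TestOn D ψ := hχ.smul M
  have key : ∀ᶠ n in atTop, |(∫ h, fld (S n) (δ n) φ h ^ k ∂(law (p n) (S n))) -
      ze (inner (p n) (S n)) (fun ω => hv (δ n) φ ω ^ k)| ≤
      k * δ n * ze (inner (p n) (S n)) (fun ω => hv (δ n) ψ ω ^ k) := by
    filter_upwards [hw, hA.lim.eventually_lt_const (zero_lt_one)] with n hn hδ1
    have hδ := hA.pos n
    obtain ⟨hn1, hn2, hn3, hn4⟩ := hn
    set I := inner (p n) (S n) with hI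
    have e0 : ∫ h, fld (S n) (δ n) φ h ^ k ∂(law (p n) (S n)) =
        ze I (fun ω => lf I (w n) ω ^ k) := by
      obtain ⟨-, -, -, -, h5⟩ := hlaw (p n) (S n) (hA.poly n) (hA.encl n)
      rw [← h5 (fun ω => lf I (w n) ω ^ k)]
      congr 1
      funext h
      rw [hn4 h]
      congr 1
      unfold lf
      refine Finset.sum_congr rfl fun v hv => ?_
      unfold vh
      rw [if_pos hv]
    have e1 : ze I (fun ω => hv (δ n) φ ω ^ k) =
        ze I (fun ω => lf I (fun v => δ n ^ 2 * tl φ (δ n * v.1, δ n * v.2)) ω ^ k) :=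
      ze_congr fun ω hω => by rw [hv_eq_lf (δ n) φ hω]
    have e2 : ze I (fun ω => hv (δ n) ψ ω ^ k) =
        ze I (fun ω => lf I (fun v => δ n ^ 2 * tl ψ (δ n * v.1, δ n * v.2)) ω ^ k) :=
      ze_congr fun ω hω => by rw [hv_eq_lf (δ n) ψ hω]
    rw [e0, e1, e2]
    -- the dominating weights
    have hdom : ∀ v : ℤ × ℤ, 0 ≤ tl ψ (δ n * v.1, δ n * v.2) ∧
        (dp (δ n) v ∈ K ∪ tsupport φ →
          tl ψ (δ n * v.1, δ n * v.2) = |C| + √3 / 2 * |B|) := by
      intro v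
      rw [tl_dp]
      refine ⟨mul_nonneg (by positivity) (mul_nonneg hM0 (hχ0 _)), fun hv => ?_⟩
      rw [hψ]
      simp only
      rw [hχ1 _ hv, hM]
      field_simp
    have hφB : ∀ v : ℤ × ℤ, |tl φ (δ n * v.1, δ n * v.2)| ≤ √3 / 2 * |B| := by
      intro v
      rw [tl_dp, abs_mul, abs_of_pos (by positivity : (0 : ℝ) < √3 / 2)]
      refine mul_le_mul_of_nonneg_left ?_ (by positivity)
      exact ((Real.norm_eq_abs _).symm.le.trans (hB _)).trans (le_abs_self B)
    have hCC := le_abs_self C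
    have hd2 : 0 < δ n ^ 2 := by positivity
    have hd3 : δ n ^ 3 ≤ δ n ^ 2 := by nlinarith
    have hd3' : 0 < δ n ^ 3 := by positivity
    have hor : ∀ v : ℤ × ℤ, dp (δ n) v ∈ K ∪ tsupport φ ∨
        (w n v = 0 ∧ tl φ (δ n * v.1, δ n * v.2) = 0) := by
      intro v
      by_cases h1 : w n v = 0
      · by_cases h2 : φ (dp (δ n) v) = 0
        · right
          refine ⟨h1, ?_⟩
          rw [tl_dp, h2, mul_zero]
        · exact Or.inl (Or.inr (subset_tsupport _ h2))
      · exact Or.inl (Or.inl (hn1 v h1).2)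
    refine ze_lf_sub hm I (fun v _ => ?_) (fun v _ => ?_) (fun v _ => ?_) k
    · rcases hor v with h | ⟨h, h'⟩
      · rw [(hdom v).2 h]
        have h1 := hn2 v
        have h2 := hφB v
        have h4 : |w n v| ≤ |w n v - δ n ^ 2 * tl φ (δ n * v.1, δ n * v.2)| +
            |δ n ^ 2 * tl φ (δ n * v.1, δ n * v.2)| := by
          have := abs_add_le (w n v - δ n ^ 2 * tl φ (δ n * v.1, δ n * v.2))
            (δ n ^ 2 * tl φ (δ n * v.1, δ n * v.2))
          rwa [sub_add_cancel] at this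
        rw [abs_mul, abs_of_pos hd2] at h4
        have h5 : C * δ n ^ 3 ≤ δ n ^ 2 * |C| := by
          have := mul_le_mul_of_nonneg_right hCC hd3'.le
          have h6 := mul_le_mul_of_nonneg_left hd3 (abs_nonneg C)
          linarith
        have h7 := mul_le_mul_of_nonneg_left h2 hd2.le
        rw [mul_add]
        linarith
      · rw [h, abs_zero]
        exact mul_nonneg hd2.le (hdom v).1
    · rw [abs_mul, abs_of_pos hd2]
      refine mul_le_mul_of_nonneg_left ?_ hd2.le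
      rcases hor v with h | ⟨h, h'⟩
      · rw [(hdom v).2 h]
        have h2 := hφB v
        have := abs_nonneg C
        linarith
      · rw [h', abs_zero]
        exact (hdom v).1
    · rcases hor v with h | ⟨h, h'⟩
      · rw [(hdom v).2 h]
        refine (hn2 v).trans ?_
        have h1 := mul_le_mul_of_nonneg_right hCC hd3'.le
        have h2 : 0 ≤ δ n ^ 3 * (√3 / 2 * |B|) := by positivity
        have h4 : δ n * (δ n ^ 2 * (|C| + √3 / 2 * |B|)) =
          |C| * δ n ^ 3 + δ n ^ 3 * (√3 / 2 * |B|) := by ring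
        rw [h4]
        linarith
      · rw [h, h', mul_zero, sub_zero, abs_zero]
        exact mul_nonneg hδ.le (mul_nonneg hd2.le (hdom v).1)
  have hz : Tendsto (fun n => k * δ n * ze (inner (p n) (S n)) (fun ω => hv (δ n) ψ ω ^ k)) atTop
      (𝓝 0) := by
    have h1 := ((hA.lim.const_mul (k : ℝ))).mul (hsq ψ hψT)
    simpa using h1
  have hdiff := squeeze_zero_norm' (f := fun n =>
    (∫ h, fld (S n) (δ n) φ h ^ k ∂(law (p n) (S n))) -
      ze (inner (p n) (S n)) (fun ω => hv (δ n) φ ω ^ k)) key hz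
  have h1 := hdiff.add (hsq φ hφ)
  rw [zero_add] at h1
  refine h1.congr fun n => ?_
  ring

/-! ### Linearity of the field -/

theorem region_meas (δ : ℝ) (S : Finset ((ℤ × ℤ) × Bool)) : MeasurableSet (region δ S) := by
  have h : region δ S = ⋃ t ∈ S, convexHull ℝ ((fun v => δ • pt v) '' (corners t : Set (ℤ × ℤ))) := by
    ext z
    simp [region]
  rw [h]
  refine Finset.measurableSet_biUnion _ fun t _ => ?_
  have hf : ((fun v => δ • pt v) '' (corners t : Set (ℤ × ℤ))).Finite :=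
    (Finset.finite_toSet _).image _
  exact (hf.isCompact_convexHull (𝕜 := ℝ)).isClosed.measurableSet

theorem interp_int {δ : ℝ} (hδ : 0 < δ) {f : ℝ × ℝ → ℝ} (hc : Continuous f)
    (hs : HasCompactSupport f) (h : ℤ × ℤ → ℤ) :
    Integrable (fun z : ℝ × ℝ => GFF.interp h (z.1 / δ, z.2 / δ) * f z) := by
  obtain ⟨R, hR⟩ := hs.isCompact.isBounded.subset_closedBall (0 : ℝ × ℝ)
  have hf : ∀ z : ℝ × ℝ, (|R| < |z.1| ∨ |R| < |z.2|) → f z = 0 := by
    intro z hz
    by_contra hne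
    have h4 : z ∈ tsupport f := subset_tsupport _ hne
    have h5 := hR h4
    rw [mem_closedBall_zero_iff, Prod.norm_def, sup_le_iff, Real.norm_eq_abs, Real.norm_eq_abs] at h5
    have := le_abs_self R
    rcases hz with h | h <;> linarith [h5.1, h5.2]
  have h1 : ∀ z : ℝ × ℝ, GFF.interp h (z.1 / δ, z.2 / δ) * f z =
      ∑ v ∈ GFF.box δ |R|, (h v : ℝ) * (GFF.ker ((z.1 / δ, z.2 / δ) - GFF.pos v) * f z) := by
    intro z
    have hz : δ • ((z.1 / δ, z.2 / δ) : ℝ × ℝ) = z := by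
      refine Prod.ext ?_ ?_
      · show δ * (z.1 / δ) = z.1
        field_simp
      · show δ * (z.2 / δ) = z.2
        field_simp
    by_cases hu : f z = 0
    · rw [hu, mul_zero]
      symm
      apply Finset.sum_eq_zero
      intro v _
      rw [mul_zero, mul_zero]
    · unfold GFF.interp
      rw [finsum_eq_sum_of_support_subset (s := GFF.box δ |R|), Finset.sum_mul]
      · apply Finset.sum_congr rfl
        intro v _
        rw [GFF.hat_eq_ker]
        ring
      · intro v hv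
        rw [Function.mem_support] at hv
        by_contra hvb
        have := GFF.ker_zero_of_box hδ (abs_nonneg R) hf hvb (z.1 / δ, z.2 / δ)
        rw [hz] at this
        rcases mul_eq_zero.1 this with h0 | h0
        · apply hv
          rw [GFF.hat_eq_ker, h0, mul_zero]
        · exact hu h0
  simp_rw [h1]
  refine integrable_finsetSum _ fun v _ => ?_
  refine Integrable.const_mul ?_ _
  apply Continuous.integrable_of_hasCompactSupport
  · exact (GFF.continuous_ker.comp (by fun_prop)).mul hc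
  · exact hs.mul_left

theorem fld_int {D : Set (ℝ × ℝ)} {δ : ℝ} (hδ : 0 < δ) (S : Finset ((ℤ × ℤ) × Bool))
    {f : ℝ × ℝ → ℝ} (hf : TestOn D f) (h : ℤ × ℤ → ℤ) :
    Integrable (fun z : ℝ × ℝ =>
      (open Classical in if z ∈ region δ S then GFF.interp h (z.1 / δ, z.2 / δ) else 0) * f z) := by
  classical
  have h1 := (interp_int hδ hf.cont hf.cs h).indicator (region_meas δ S)
  refine h1.congr (ae_of_all _ fun z => ?_)
  by_cases hz : z ∈ region δ S
  · simp only [indicator_of_mem hz, if_pos hz]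
  · simp only [indicator_of_notMem hz, if_neg hz, zero_mul]

theorem fld_sum {D : Set (ℝ × ℝ)} {δ : ℝ} (hδ : 0 < δ) (S : Finset ((ℤ × ℤ) × Bool)) {k : ℕ}
    {φ : Fin k → ℝ × ℝ → ℝ} (hφ : ∀ j, TestOn D (φ j)) (x : Fin k → ℝ) (h : ℤ × ℤ → ℤ) :
    fld S δ (fun z => ∑ j, x j * φ j z) h = ∑ j, x j * fld S δ (φ j) h := by
  unfold fld
  simp_rw [← integral_const_mul]
  rw [← integral_finsetSum]
  · congr 1
    funext z
    rw [Finset.mul_sum]
    exact Finset.sum_congr rfl fun j _ => by ring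
  · intro j _
    exact (fld_int hδ S (hφ j) h).const_mul _

/-- Convergence of the characteristic functions of all single test functions gives the joint
convergence in law to the centred Gaussian vector (linearity on the test functions only). -/
theorem vec_conv' {D : Set (ℝ × ℝ)} (hD : Bornology.IsBounded D) {c : ℝ} (hc : 0 ≤ c)
    {Ω : ℕ → Type*} [∀ n, MeasurableSpace (Ω n)] (μ : ∀ n, Measure (Ω n))
    [∀ n, IsProbabilityMeasure (μ n)] (X : ∀ n, Ω n → (ℝ × ℝ → ℝ) → ℝ)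
    (k : ℕ) (φ : Fin k → ℝ × ℝ → ℝ) (hφ : ∀ j, TestOn D (φ j))
    (hlin : ∀ n ω (x : Fin k → ℝ), X n ω (fun z => ∑ j, x j * φ j z) = ∑ j, x j * X n ω (φ j))
    (hm : ∀ n φ, AEMeasurable (fun ω => X n ω φ) (μ n))
    (hch : ∀ φ, TestOn D φ → Tendsto
      (fun n => ∫ ω, Complex.exp ((X n ω φ : ℂ) * Complex.I) ∂μ n) atTop
      (𝓝 (Complex.exp (-((c * V D φ : ℝ) : ℂ) / 2)))) :
    (Matrix.of fun i j => c * Vale.Agent.P145.Dom.dirCov D (φ i) (φ j)).PosSemidef ∧
    TendstoInDistribution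
      (fun n ω => (WithLp.toLp 2 (fun j => X n ω (φ j)) : EuclideanSpace ℝ (Fin k))) atTop
      (id : EuclideanSpace ℝ (Fin k) → EuclideanSpace ℝ (Fin k)) μ
      (multivariateGaussian 0
        (Matrix.of fun i j => c * Vale.Agent.P145.Dom.dirCov D (φ i) (φ j))) := by
  have hpsd := Vale.Agent.P145.Dom.dirCov_posSemidef hD hc hφ
  refine ⟨hpsd, ?_⟩
  have hX : ∀ n, AEMeasurable (fun ω =>
      (WithLp.toLp 2 (fun j => X n ω (φ j)) : EuclideanSpace ℝ (Fin k))) (μ n) := by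
    intro n
    exact (WithLp.measurable_toLp 2 (Fin k → ℝ)).comp_aemeasurable
      (aemeasurable_pi_lambda _ fun j => hm n (φ j))
  refine ⟨hX, by fun_prop, ?_⟩
  refine ProbabilityMeasure.tendsto_of_tendsto_charFun fun t => ?_
  have hid : (multivariateGaussian 0
        (Matrix.of fun i j => c * Vale.Agent.P145.Dom.dirCov D (φ i) (φ j))).map
      (id : EuclideanSpace ℝ (Fin k) → EuclideanSpace ℝ (Fin k)) =
      multivariateGaussian 0
        (Matrix.of fun i j => c * Vale.Agent.P145.Dom.dirCov D (φ i) (φ j)) := Measure.map_id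
  simp only [ProbabilityMeasure.coe_mk, hid]
  rw [charFun_multivariateGaussian hpsd]
  have hF := Vale.Agent.P145.Dom.TestOn.sum hφ (fun j => t j)
  have h1 := hch _ hF
  have h2 : Complex.exp (((inner ℝ t (0 : EuclideanSpace ℝ (Fin k)) : ℝ) : ℂ) * Complex.I -
      ((t : Fin k → ℝ) ⬝ᵥ
        (Matrix.of fun i j => c * Vale.Agent.P145.Dom.dirCov D (φ i) (φ j)).mulVec t : ℝ) / 2) =
      Complex.exp (-((c * V D (fun z => ∑ j, t j * φ j z) : ℝ) : ℂ) / 2) := by
    rw [Vale.Agent.P145.Dom.dirCov_dot hD c hφ, inner_zero_right]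
    congr 1
    push_cast
    ring
  rw [h2]
  refine h1.congr fun n => ?_
  change ∫ ω, Complex.exp ((X n ω (fun z => ∑ j, t j * φ j z) : ℂ) * Complex.I) ∂μ n =
    charFun ((μ n).map (fun ω =>
      (WithLp.toLp 2 (fun j => X n ω (φ j)) : EuclideanSpace ℝ (Fin k)))) t
  rw [charFun_apply, integral_map (hX n) (by fun_prop)]
  refine integral_congr_ae (ae_of_all _ fun ω => ?_)
  simp only []
  rw [hlin n ω (fun j => t j)]
  congr 3

/-- **The convergence in law**, from the output of the top block. -/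
theorem conv_of_key {κ : ℝ} (hκ : 0 ≤ κ) (hm : S_mono)
    (hkey : ∀ δ : ℕ → ℝ, (∀ n, 0 < δ n) → Tendsto δ atTop (𝓝 0) → S_key κ δ)
    (hlaw : S_law) (hin : S_in) (hout : S_out) (hfld : S_fld)
    {D : Set (ℝ × ℝ)} (hJ : JordanDomain D) : Conv κ D := by
  have hJ' : Vale.Agent.P145.Dom.JordanDomain D := hJ
  intro δ N p S hA
  have hprob : ∀ n, IsProbabilityMeasure (law (p n) (S n)) := fun n =>
    (hlaw (p n) (S n) (hA.poly n) (hA.encl n)).2.2.1
  have hint : ∀ n (G : (ℤ × ℤ → ℤ) → ℝ), Integrable G (law (p n) (S n)) := fun n =>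
    (hlaw (p n) (S n) (hA.poly n) (hA.encl n)).2.2.2.1
  refine ⟨hprob, fun k φ hφ => ?_⟩
  exact vec_conv' (c := κ) hJ'.isBounded hκ (fun n => law (p n) (S n))
    (fun n h φ => fld (S n) (δ n) φ h) k φ hφ
    (fun n h x => fld_sum (hA.pos n) (S n) hφ x h)
    (fun n φ => (hint n _).aestronglyMeasurable.aemeasurable)
    (fun ψ hψ => by
      have key := charfun_of_moments (l := atTop) (fun n => law (p n) (S n))
        (fun n h => fld (S n) (δ n) ψ h) (fun n j => hint n _) (v := κ * V D ψ)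
        (fun j => mom_fld hm hlaw hin hout hfld hJ hkey hA hψ j)
      have e1 : ((-(κ * V D ψ / 2) : ℝ) : ℂ) = -((κ * V D ψ : ℝ) : ℂ) / 2 := by
        push_cast; ring
      rw [e1] at key
      refine key.congr fun n => ?_
      refine integral_congr_ae (ae_of_all _ fun h => ?_)
      simp only []
      rw [mul_comm])

end Vale.Agent.P153.F.Top
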