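import Vale.Agent.P153.F.Top.Cone
import Vale.Agent.P153.F.Free
import Vale.Agent.P145.PT.Mom

/-!
P153-F, top block: the interface between the lattice blocks and the identification of the limit
(triangular lattice; same structure as `P145.Top.Stmt`). Odd heights, free boundary values `±1`.
The domain with the finite set `I` of inner vertices: heights with `|h| = 1` off `I`.
-/

namespace Vale.Agent.P153.F.Top

open Filter Topology Set MeasureTheory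
open Vale.Agent.P145.PT Vale.Agent.P153

/-- The point `δ v` of the plane. -/
noncomputable def dp (δ : ℝ) (v : ℤ × ℤ) : ℝ × ℝ :=
  (δ * (v.1 + v.2 / 2), δ * (√3 / 2 * v.2))

open Classical in
/-- The vertices of the lattice of mesh `δ` at sup-distance more than `2 δ` from the complement of
`D` (for bounded `D` and `0 < δ`). -/
noncomputable def Vs (δ : ℝ) (D : Set (ℝ × ℝ)) : Finset (ℤ × ℤ) :=
  if h : {v : ℤ × ℤ | Metric.closedBall (dp δ v) (2 * δ) ⊆ D}.Finite then h.toFinset else ∅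

/-- The heights at the inner vertices. -/
noncomputable def vh (I : Finset (ℤ × ℤ)) (h : Hg) : Om := fun v => if v ∈ I then (h v : ℝ) else 0

/-- Expectation in the domain with inner vertices `I`. -/
noncomputable def ze (I : Finset (ℤ × ℤ)) (A : Om → ℝ) : ℝ := ev (FreeF I (clo I)) fun h => A (vh I h)

/-- `√3/2 δ² ∑_v ω(v) f(δ v)`, for `f` of compact support. -/
noncomputable def hv (δ : ℝ) (f : ℝ × ℝ → ℝ) (ω : Om) : ℝ :=
  δ ^ 2 * ∑ᶠ v : ℤ × ℤ, ω v * tl f (δ * v.1, δ * v.2)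

/-- Product over a list of test functions. -/
noncomputable def hvl (δ : ℝ) (l : List (ℝ × ℝ → ℝ)) (ω : Om) : ℝ :=
  (l.map fun f => hv δ f ω).prod

/-- Expectation in the lattice version of the domain `D`. -/
noncomputable def EE (δ : ℝ) (D : Set (ℝ × ℝ)) (A : Om → ℝ) : ℝ := ze (Vs δ D) A

/-- First lattice coordinate. -/
noncomputable def c1 (z : ℝ × ℝ) : ℝ := z.1 - z.2 / √3

/-- Second lattice coordinate. -/
noncomputable def c2 (z : ℝ × ℝ) : ℝ := 2 * z.2 / √3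

/-- The open triangle `a < q₁`, `b < q₂`, `q₁ + q₂ < c` (lattice coordinates). -/
def cell (a b c : ℝ) : Set (ℝ × ℝ) := {z | a < c1 z ∧ b < c2 z ∧ c1 z + c2 z < c}

/-- The closed triangle. -/
def ccell (a b c : ℝ) : Set (ℝ × ℝ) := {z | a ≤ c1 z ∧ b ≤ c2 z ∧ c1 z + c2 z ≤ c}

/-- Exterior squares: the complement of `D` is a union of closed axis-parallel squares of a fixed
size (balls of the sup norm). -/
def ThickC (D : Set (ℝ × ℝ)) : Prop :=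
  ∃ g : ℝ, 0 < g ∧ ∀ x ∉ D, ∃ y : ℝ × ℝ, x ∈ Metric.closedBall y g ∧
    Disjoint (Metric.closedBall y g) D

/-- MONO: the moments of the heights are nonnegative and increasing in the set of inner vertices,
and the heights are centred. -/
def S_mono : Prop := ∀ F F' : Finset (ℤ × ℤ), F ⊆ F' → ∀ v : List (ℤ × ℤ),
  0 ≤ ze F (fun ω => (v.map ω).prod) ∧
  ze F (fun ω => (v.map ω).prod) ≤ ze F' (fun ω => (v.map ω).prod) ∧
  ∀ u : ℤ × ℤ, ze F (fun ω => ω u) = 0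

/-- MB: the moments are bounded. -/
def S_mb (δ : ℕ → ℝ) : Prop := ∀ D : Set (ℝ × ℝ), IsOpen D → Bornology.IsBounded D →
  ∀ f : ℝ × ℝ → ℝ, TestOn univ f → (∀ z, 0 ≤ f z) → ∀ k : ℕ,
    ∃ C : ℝ, ∀ᶠ n in atTop, EE (δ n) D (fun ω => hv (δ n) f ω ^ k) ≤ C

/-- L2B: the second moments are bounded in `L²`. -/
def S_l2 (δ : ℕ → ℝ) : Prop := ∀ R : ℝ, 0 < R → ∃ C : ℝ, 0 ≤ C ∧
  ∀ D : Set (ℝ × ℝ), IsOpen D → D ⊆ Metric.ball 0 R →
  ∀ f : ℝ × ℝ → ℝ, TestOn (Metric.ball 0 R) f → (∀ z, 0 ≤ f z) → ∀ ε : ℝ, 0 < ε →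
    ∀ᶠ n in atTop, EE (δ n) D (fun ω => hv (δ n) f ω ^ 2) ≤ C * (∫ z, f z ^ 2) + ε

/-- DEC': decay at the boundary, for domains with exterior squares. -/
def S_dec (δ : ℕ → ℝ) : Prop := ∀ D : Set (ℝ × ℝ), IsOpen D → Bornology.IsBounded D →
  ThickC D → ∀ f : ℝ × ℝ → ℝ, TestOn D f → (∀ z, 0 ≤ f z) → ∀ (k : ℕ) (ε : ℝ), 0 < ε →
    ∃ r : ℝ, 0 < r ∧ ∀ x ∈ D, dd D x < r → ∀ᶠ n in atTop,
      EE (δ n) D (fun ω => hv (δ n) (bump (dd D x / 2) x) ω * hv (δ n) f ω ^ k) ≤ ε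

/-- XST: the measures `ν n` with the sandwich and the Schwinger-Dyson equation, up to an error `η`
and for finitely many test functions. -/
def S_xst (κ : ℝ) (δ : ℕ → ℝ) : Prop := ∀ D₁ D₂ : Set (ℝ × ℝ), IsOpen D₁ → IsOpen D₂ →
  Bornology.IsBounded D₂ → closure D₁ ⊆ D₂ → ∀ a b c : ℝ, a + b < c →
  ccell a b c ⊆ D₁ → ∀ (ψ f : ℝ × ℝ → ℝ) (k : ℕ), TestOn (cell a b c) ψ → TestOn D₁ f →
  (∀ z, 0 ≤ f z) → ∀ L : List (List (ℝ × ℝ → ℝ)),
  (∀ l ∈ L, ∀ g ∈ l, TestOn D₁ g ∧ ∀ z, 0 ≤ g z) → ∀ η : ℝ, 0 < η →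
    ∃ ν : ℕ → Measure Om, (∀ᶠ n in atTop, Mom (ν n)) ∧
    (∀ l ∈ L, ∀ᶠ n in atTop,
      EE (δ n) D₁ (hvl (δ n) l) ≤ (∫ ω, hvl (δ n) l ω ∂(ν n)) + η ∧
      ∫ ω, hvl (δ n) l ω ∂(ν n) ≤ EE (δ n) D₂ (hvl (δ n) l) + η) ∧
    ∀ᶠ n in atTop, |(∫ ω, hv (δ n) (lap ψ) ω * hv (δ n) f ω ^ (k + 1) ∂(ν n)) +
        κ * (k + 1) * (∫ z, ψ z * f z) * ∫ ω, hv (δ n) f ω ^ k ∂(ν n)| ≤ η

/-- All inputs. -/
structure Inputs (κ : ℝ) (δ : ℕ → ℝ) : Prop where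
  κpos : 0 < κ
  δpos : ∀ n, 0 < δ n
  δlim : Tendsto δ atTop (𝓝 0)
  mono : S_mono
  mb : S_mb δ
  l2 : S_l2 δ
  dec : S_dec δ
  xst : S_xst κ δ

/-- A strictly nested family of domains. -/
structure Nest (a b : ℝ) (D : ℝ → Set (ℝ × ℝ)) : Prop where
  lt : a < b
  op : ∀ s ∈ Ioo a b, IsOpen (D s)
  bdd : ∀ s ∈ Ioo a b, Bornology.IsBounded (D s)
  thick : ∀ s ∈ Ioo a b, ThickC (D s)
  nest : ∀ s ∈ Ioo a b, ∀ t ∈ Ioo a b, s < t → closure (D s) ⊆ D t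
  exh : ∀ s ∈ Ioo a b, ∀ K ⊆ D s, IsCompact K → ∃ t ∈ Ioo a b, t < s ∧ K ⊆ D t

/-- The output of this block: along every ultrafilter, for some parameter of every nested family,
all moments of nonnegative test functions converge to the moments of the Gaussian free field. -/
def S_key (κ : ℝ) (δ : ℕ → ℝ) : Prop := ∀ (a b : ℝ) (D : ℝ → Set (ℝ × ℝ)), Nest a b D →
  (∃ R : ℝ, ∀ s ∈ Ioo a b, D s ⊆ Metric.ball 0 R) →
  ∀ U : Ultrafilter ℕ, (U : Filter ℕ) ≤ atTop → ∃ s ∈ Ioo a b,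
    ∀ f : ℝ × ℝ → ℝ, TestOn (D s) f → (∀ z, 0 ≤ f z) → ∀ k : ℕ,
      Tendsto (fun n => EE (δ n) (D s) (fun ω => hv (δ n) f ω ^ k)) U
        (𝓝 (gm (κ * V (D s) f) k))

end Vale.Agent.P153.F.Top
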