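import Vale.Agent.P153.F.Top.Stmt

/-!
P145, block F-TOP, leaf K3: a test function is a finite sum of test functions supported in cells.
-/

namespace Vale.Agent.P153.F.Top

open Filter Topology Set MeasureTheory
open Vale.Agent.P145.PT
open scoped Manifold ContDiff

private theorem cells_isOpen (a b c : ℝ) : IsOpen (cell a b c) := by
  have h : cell a b c = {z : ℝ × ℝ | a < c1 z} ∩ {z | b < c2 z} ∩ {z | c1 z + c2 z < c} := by
    ext z
    simp only [cell, Set.mem_setOf_eq, Set.mem_inter_iff]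
    tauto
  have k1 : Continuous c1 := by unfold c1; fun_prop
  have k2 : Continuous c2 := by unfold c2; fun_prop
  rw [h]
  exact ((isOpen_lt continuous_const k1).inter (isOpen_lt continuous_const k2)).inter
    (isOpen_lt (k1.add k2) continuous_const)

private theorem cells_small {D : Set (ℝ × ℝ)} (hD : IsOpen D) {z : ℝ × ℝ} (hz : z ∈ D) :
    ∃ e : ℝ, 0 < e ∧ ccell (c1 z - e) (c2 z - e) (c1 z + c2 z + e) ⊆ D := by
  obtain ⟨r, hr, hb⟩ := Metric.nhds_basis_closedBall.mem_iff.1 (hD.mem_nhds hz)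
  refine ⟨r / 3, by positivity, fun w hw => hb ?_⟩
  obtain ⟨h1, h2, h3⟩ := hw
  have hs0 : (0 : ℝ) < √3 := by positivity
  have hs2 : √3 * √3 = 3 := Real.mul_self_sqrt (by norm_num)
  have hs : √3 < 2 := by nlinarith
  have e2 : ∀ u : ℝ × ℝ, u.2 = √3 / 2 * c2 u := fun u => by
    unfold c2; field_simp
  have e1 : ∀ u : ℝ × ℝ, u.1 = c1 u + c2 u / 2 := fun u => by
    unfold c1 c2; ring
  rw [Metric.mem_closedBall, Prod.dist_eq, Real.dist_eq, Real.dist_eq, e1 w, e1 z, e2 w, e2 z]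
  have h4 : |c2 w - c2 z| ≤ 2 * (r / 3) := abs_le.2 ⟨by linarith, by linarith⟩
  refine max_le (abs_le.2 ⟨by linarith, by linarith⟩) ?_
  rw [← mul_sub, abs_mul, abs_of_pos (by positivity : (0 : ℝ) < √3 / 2)]
  nlinarith [abs_nonneg (c2 w - c2 z)]

/-- **Leaf K3**: decomposition of a test function into test functions of cells. -/
theorem exists_cells {D : Set (ℝ × ℝ)} (hD : IsOpen D) {ψ : ℝ × ℝ → ℝ} (hψ : TestOn D ψ) :
    ∃ (m : ℕ) (g : Fin m → ℝ × ℝ → ℝ) (a b c : Fin m → ℝ),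
      (∀ i, a i + b i < c i ∧ ccell (a i) (b i) (c i) ⊆ D ∧
        TestOn (cell (a i) (b i) (c i)) (g i)) ∧ ∀ z, ψ z = ∑ i, g i z := by
  classical
  have hK : IsCompact (tsupport ψ) := hψ.2.1
  have hKD : tsupport ψ ⊆ D := hψ.2.2
  choose! e he heD using fun (z : ℝ × ℝ) (hz : z ∈ D) => cells_small hD hz
  let U : ℝ × ℝ → Set (ℝ × ℝ) := fun z => cell (c1 z - e z) (c2 z - e z) (c1 z + c2 z + e z)
  obtain ⟨t, htK, htc⟩ := hK.elim_nhds_subcover U (fun z hz => (cells_isOpen _ _ _).mem_nhds (by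
    have h := he z (hKD hz)
    exact ⟨by linarith, by linarith, by linarith⟩))
  -- enumerate
  let q : Fin t.card ≃ t := t.equivFin.symm
  let c : Fin t.card → ℝ × ℝ := fun i => (q i : ℝ × ℝ)
  have hcK : ∀ i, c i ∈ tsupport ψ := fun i => htK _ (q i).2
  have hcov : tsupport ψ ⊆ ⋃ i, U (c i) := by
    intro z hz
    obtain ⟨x, hx, hxz⟩ := Set.mem_iUnion₂.1 (htc hz)
    refine Set.mem_iUnion.2 ⟨q.symm ⟨x, hx⟩, ?_⟩
    simpa [c] using hxz
  obtain ⟨f, hf⟩ := SmoothPartitionOfUnity.exists_isSubordinate 𝓘(ℝ, ℝ × ℝ)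
    (isClosed_tsupport ψ) (fun i => U (c i)) (fun i => cells_isOpen _ _ _) hcov
  refine ⟨t.card, fun i z => ψ z * f i z, fun i => c1 (c i) - e (c i),
    fun i => c2 (c i) - e (c i), fun i => c1 (c i) + c2 (c i) + e (c i), fun i => ?_, fun z => ?_⟩
  · have h := he (c i) (hKD (hcK i))
    refine ⟨by linarith, heD _ (hKD (hcK i)), ?_, ?_, ?_⟩
    · have h1 : ContDiff ℝ ∞ (fun z => f i z) := (f i).contMDiff.contDiff
      exact hψ.1.mul h1
    · exact hψ.2.1.mul_right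
    · exact (tsupport_mul_subset_right).trans (hf i)
  · by_cases hz : z ∈ tsupport ψ
    · rw [← Finset.mul_sum]
      have h1 : ∑ᶠ i, f i z = 1 := f.sum_eq_one hz
      rw [finsum_eq_sum_of_fintype] at h1
      rw [h1, mul_one]
    · have h0 : ψ z = 0 := image_eq_zero_of_notMem_tsupport hz
      simp [h0]

end Vale.Agent.P153.F.Top
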