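import Vale.Agent.P153.F.Top.Stmt

/-!
P145, block F-TOP, K2: dominating test functions.
-/

namespace Vale.Agent.P153.F.Top

open MeasureTheory Set Filter Topology
open Vale.Agent.P145.PT

/-- A cutoff function for a test function. -/
theorem exists_chi {D : Set (ℝ × ℝ)} (hD : IsOpen D) (hb : Bornology.IsBounded D)
    {f : ℝ × ℝ → ℝ} (hf : TestOn D f) : ∃ (r : ℝ) (χ : ℝ × ℝ → ℝ), 0 < r ∧ TestOn D χ ∧
      (∀ z, 0 ≤ χ z ∧ χ z ≤ 1) ∧ (∀ z, r / 2 ≤ dd D z → χ z = 1) ∧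
      ∀ z, dd D z ≤ r → f z = 0 := by
  obtain ⟨r, hr, hz⟩ := exists_low hD hb hf
  obtain ⟨χ, hχs, hχ01, hχ0, hχ1⟩ := exists_cutoff D (show r / 4 < r / 2 by linarith)
  have hsub : tsupport χ ⊆ {x | r / 4 ≤ dd D x} := by
    refine closure_minimal ?_ (isClosed_le continuous_const (dd_cont D))
    intro x hx
    by_contra h
    rw [mem_ofPred_eq, not_le] at h
    exact hx (hχ0 x h.le)
  have hsubD : tsupport χ ⊆ D := fun x hx => by
    have h1 : r / 4 ≤ dd D x := hsub hx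
    exact (dd_pos hD hb).1 (by linarith)
  have hχT : TestOn D χ := ⟨hχs,
    Metric.isCompact_of_isClosed_isBounded (isClosed_tsupport _) (hb.subset hsubD), hsubD⟩
  exact ⟨r, χ, hr, hχT, hχ01, hχ1, hz⟩

/-- Domination of a test function by a nonnegative one, with `L²` norm almost as small. -/
theorem exists_dom {D : Set (ℝ × ℝ)} (hD : IsOpen D) (hb : Bornology.IsBounded D)
    {f : ℝ × ℝ → ℝ} (hf : TestOn D f) {ε : ℝ} (hε : 0 < ε) : ∃ g : ℝ × ℝ → ℝ, TestOn D g ∧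
      (∀ z, |f z| ≤ g z) ∧ ∫ z, g z ^ 2 ≤ (∫ z, f z ^ 2) + ε := by
  obtain ⟨r, χ, hr, hχT, hχ01, hχ1, hz⟩ := exists_chi hD hb hf
  set I : ℝ := ∫ z, χ z ^ 2 with hI
  have hI0 : 0 ≤ I := integral_nonneg fun z => sq_nonneg _
  set e : ℝ := Real.sqrt (ε / (I + 1)) with he
  have he0 : 0 < e := Real.sqrt_pos.2 (by positivity)
  have he2 : e ^ 2 = ε / (I + 1) := Real.sq_sqrt (by positivity)
  have heI : e ^ 2 * I ≤ ε := by
    rw [he2, div_mul_eq_mul_div, div_le_iff₀ (by linarith)]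
    nlinarith
  set g : ℝ × ℝ → ℝ := fun z => Real.sqrt (f z ^ 2 + (e * χ z) ^ 2) with hg
  have hsq : ∀ z, g z ^ 2 = f z ^ 2 + (e * χ z) ^ 2 := fun z => Real.sq_sqrt (by positivity)
  -- the function away from the boundary and close to it
  have hlow : ∀ z, dd D z ≤ r → g z = e * χ z := by
    intro z hzr
    rw [hg]; simp only
    rw [hz z hzr]
    rw [zero_pow two_ne_zero, zero_add, Real.sqrt_sq (mul_nonneg he0.le (hχ01 z).1)]
  have hhigh : ∀ z, r / 2 ≤ dd D z → f z ^ 2 + (e * χ z) ^ 2 ≠ 0 := by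
    intro z hzr
    rw [hχ1 z hzr]
    have : 0 < (e * 1) ^ 2 := by positivity
    positivity
  have hgs : ContDiff ℝ ((⊤ : ℕ∞) : WithTop ℕ∞) g := by
    rw [contDiff_iff_contDiffAt]
    intro z
    rcases lt_or_ge (dd D z) r with h | h
    · have hev : g =ᶠ[𝓝 z] fun z => e * χ z := by
        filter_upwards [(dd_cont D).continuousAt.eventually_lt continuousAt_const h] with y hy
        exact hlow y hy.le
      exact (((contDiff_const (c := e)).mul hχT.1).contDiffAt (x := z)).congr_of_eventuallyEq hev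
    · have h1 : ContDiff ℝ ((⊤ : ℕ∞) : WithTop ℕ∞) fun z => f z ^ 2 + (e * χ z) ^ 2 :=
        (hf.1.pow 2).add (((contDiff_const (c := e)).mul hχT.1).pow 2)
      exact h1.contDiffAt.sqrt (hhigh z (by linarith))
  have hsubg : Function.support g ⊆ tsupport f ∪ tsupport χ := by
    intro z hzg
    by_contra h
    rw [mem_union, not_or] at h
    have h1 : f z = 0 := image_eq_zero_of_notMem_tsupport h.1
    have h2 : χ z = 0 := image_eq_zero_of_notMem_tsupport h.2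
    apply hzg
    rw [hg]; simp only
    rw [h1, h2]; simp
  have hclg : tsupport g ⊆ tsupport f ∪ tsupport χ :=
    closure_minimal hsubg ((isClosed_tsupport _).union (isClosed_tsupport _))
  have hsubD : tsupport g ⊆ D := hclg.trans (union_subset hf.2.2 hχT.2.2)
  refine ⟨g, ⟨hgs, Metric.isCompact_of_isClosed_isBounded (isClosed_tsupport _)
    (hb.subset hsubD), hsubD⟩, fun z => ?_, ?_⟩
  · refine Real.abs_le_sqrt ?_
    nlinarith [sq_nonneg (e * χ z)]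
  · have e1 : (fun z => g z ^ 2) = fun z => f z ^ 2 + e ^ 2 * χ z ^ 2 := by
      funext z; rw [hsq z]; ring
    rw [e1, integral_add hf.intSq (hχT.intSq.const_mul _), integral_const_mul]
    linarith

/-- A large test function. -/
theorem exists_big {R : ℝ} (hR : 0 < R) : ∃ f0 : ℝ × ℝ → ℝ,
    TestOn (Metric.ball (0 : ℝ × ℝ) (2 * R)) f0 ∧ (∀ z, 0 ≤ f0 z) ∧
      ∀ z ∈ Metric.ball (0 : ℝ × ℝ) R, 1 ≤ f0 z := by
  obtain ⟨χ, h0, h1, h2⟩ := exists_contMDiffMap_zero_one_of_isClosed (n := (⊤ : ℕ∞))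
    (modelWithCornersSelf ℝ (ℝ × ℝ)) (s := {x : ℝ × ℝ | 3 / 2 * R ≤ dist x 0})
    (t := {x : ℝ × ℝ | dist x 0 ≤ R})
    (isClosed_le continuous_const (by fun_prop)) (isClosed_le (by fun_prop) continuous_const)
    (by
      rw [Set.disjoint_left]
      intro x hx hx'
      have h1 : 3 / 2 * R ≤ dist x 0 := hx
      have h2 : dist x 0 ≤ R := hx'
      linarith)
  have hsub : tsupport χ ⊆ {x : ℝ × ℝ | dist x 0 ≤ 3 / 2 * R} := by
    refine closure_minimal ?_ (isClosed_le (by fun_prop) continuous_const)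
    intro x hx
    by_contra h
    rw [mem_ofPred_eq, not_le] at h
    exact hx (h0 h.le)
  have hsub' : tsupport χ ⊆ Metric.ball (0 : ℝ × ℝ) (2 * R) := fun x hx => by
    have h1 : dist x 0 ≤ 3 / 2 * R := hsub hx
    rw [Metric.mem_ball]; linarith
  refine ⟨χ, ⟨χ.contMDiff.contDiff, Metric.isCompact_of_isClosed_isBounded (isClosed_tsupport _)
    (Metric.isBounded_ball.subset hsub'), hsub'⟩, fun z => (h2 z).1, fun z hz => ?_⟩
  exact (h1 (show dist z 0 ≤ R from (Metric.mem_ball.1 hz).le)).ge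

/-- Decomposition of a test function, with domination. -/
theorem pos_part {D : Set (ℝ × ℝ)} (hD : IsOpen D) (hb : Bornology.IsBounded D)
    {f : ℝ × ℝ → ℝ} (hf : TestOn D f) {R : ℝ} {f0 : ℝ × ℝ → ℝ}
    (hDR : D ⊆ Metric.ball (0 : ℝ × ℝ) R) (h0 : ∀ z, 0 ≤ f0 z)
    (h1 : ∀ z ∈ Metric.ball (0 : ℝ × ℝ) R, 1 ≤ f0 z) :
    ∃ (p m : ℝ × ℝ → ℝ) (C : ℝ), 0 ≤ C ∧ TestOn D p ∧ TestOn D m ∧
      (∀ z, 0 ≤ p z ∧ p z ≤ C * f0 z) ∧ (∀ z, 0 ≤ m z ∧ m z ≤ C * f0 z) ∧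
      ∀ z, f z = p z - m z := by
  obtain ⟨p, m, hp, hm, hp0, hm0, hpm⟩ := exists_decomp hD hb hf
  have key : ∀ {q : ℝ × ℝ → ℝ}, TestOn D q → (∀ z, 0 ≤ q z) →
      ∃ C : ℝ, 0 ≤ C ∧ ∀ C' : ℝ, C ≤ C' → ∀ z, q z ≤ C' * f0 z := by
    intro q hq hq0
    obtain ⟨B, hB⟩ := hq.cs.exists_bound_of_continuous hq.cont
    have hB0 : 0 ≤ B := (norm_nonneg _).trans (hB 0)
    refine ⟨B, hB0, fun C' hC' z => ?_⟩
    by_cases hz : z ∈ D
    · have h2 := h1 z (hDR hz)
      have h3 : q z ≤ B := (le_abs_self _).trans (hB z)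
      have h4 : C' * 1 ≤ C' * f0 z := mul_le_mul_of_nonneg_left h2 (hB0.trans hC')
      linarith
    · have h2 : q z = 0 := by
        by_contra h
        exact hz (hq.2.2 (subset_tsupport q h))
      rw [h2]
      exact mul_nonneg (hB0.trans hC') (h0 z)
  obtain ⟨C1, hC1, hb1⟩ := key hp hp0
  obtain ⟨C2, hC2, hb2⟩ := key hm hm0
  exact ⟨p, m, max C1 C2, hC1.trans (le_max_left _ _), hp, hm,
    fun z => ⟨hp0 z, hb1 _ (le_max_left _ _) z⟩, fun z => ⟨hm0 z, hb2 _ (le_max_right _ _) z⟩, hpm⟩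

end Vale.Agent.P153.F.Top
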