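import Vale.Agent.P153.F.Top.Stmt

/-!
P153-F, top block: MONO. The moments of the heights are nonnegative and increasing in the set of
inner vertices.
-/

namespace Vale.Agent.P153.F.Top

open Finset Vale.Agent.P153 Vale.Agent.P153.F

/-- The indicators of the points of a list. -/
noncomputable def smPhi (v : List (ℤ × ℤ)) (i : Fin v.length) (x : Pt) : ℝ :=
  if x = v[i.1] then 1 else 0

theorem smPhi_nonneg (v : List (ℤ × ℤ)) (i : Fin v.length) (x : Pt) : 0 ≤ smPhi v i x := by
  unfold smPhi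
  split_ifs <;> norm_num

theorem sm_sum (F : Finset Pt) (v : List (ℤ × ℤ)) (h : Hg) (i : Fin v.length) :
    ∑ x ∈ F, smPhi v i x * (h x : ℝ) = vh F h v[i.1] := by
  unfold smPhi vh
  simp only [ite_mul, one_mul, zero_mul]
  rw [Finset.sum_ite_eq']

theorem sm_pl (F : Finset Pt) (v : List (ℤ × ℤ)) (h : Hg) :
    (v.map (vh F h)).prod = pl F (smPhi v) h := by
  unfold pl
  rw [← Fin.prod_univ_fun_getElem]
  exact Finset.prod_congr rfl fun i _ => (sm_sum F v h i).symm

theorem sm_ze (F : Finset Pt) (v : List (ℤ × ℤ)) :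
    ze F (fun ω => (v.map ω).prod) = ev (FreeF F (clo F)) (pl F (smPhi v)) := by
  unfold ze
  exact ev_congr _ _ _ fun h _ => sm_pl F v h

theorem sm_nonneg {k : ℕ} {D U I : Finset Pt} {φ : Fin k → Pt → ℝ} (hDU : ∀ x ∈ D, x ∈ U)
    (hφ : ∀ i, ∀ x ∈ I, 0 ≤ φ i x) : 0 ≤ ev (FreeF D U) (pl I φ) := by
  have h1 := sum_free_pl (I := I) (φ := φ) hDU (fun _ => (1 : ℝ))
  simp only [one_mul, mul_one] at h1
  unfold ev
  rw [h1]
  exact div_nonneg (Finset.sum_nonneg fun a _ => mul_nonneg (Nat.cast_nonneg _) (Fk_nonneg hφ a))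
    (Nat.cast_nonneg _)

theorem sm_clo {F F' : Finset Pt} (h : F ⊆ F') : clo F ⊆ clo F' := by
  unfold clo
  exact Finset.union_subset_union h (Finset.biUnion_subset_biUnion_of_subset_left _ h)

theorem sm_dom {k : ℕ} {D D' U I : Finset Pt} {φ : Fin k → Pt → ℝ} (hD : D' ⊆ D)
    (hDU : ∀ x ∈ D, x ∈ U) (hφ : ∀ i, ∀ x ∈ I, 0 ≤ φ i x) :
    ev (FreeF D' U) (pl I φ) ≤ ev (FreeF D U) (pl I φ) := by
  have h1 := master (D' := D') (D := D) (U := U) (I := I) (φ := φ) hD hDU (fun _ => 1)
    (fun _ => 1) (fun _ => zero_le_one) (fun _ => zero_le_one) (fun _ _ _ _ => le_rfl) hφ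
  simp only [one_mul, Finset.sum_const, nsmul_eq_mul, mul_one] at h1
  have c1 : (0 : ℝ) < #(FreeF D' U) := by exact_mod_cast (nonempty_free _ _).card_pos
  have c2 : (0 : ℝ) < #(FreeF D U) := by exact_mod_cast (nonempty_free _ _).card_pos
  unfold ev
  rw [div_le_div_iff₀ c1 c2]
  linarith

/-- MONO. -/
theorem s_mono : S_mono := by
  classical
  intro F F' hF v
  refine ⟨?_, ?_, fun u => ?_⟩
  · rw [sm_ze]
    exact sm_nonneg (sub_clo F) fun i x _ => smPhi_nonneg v i x
  · rw [sm_ze, sm_ze]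
    have e1 : ev (FreeF F (clo F')) (pl F (smPhi v)) = ev (FreeF F (clo F)) (pl F (smPhi v)) :=
      ev_window (sm_clo hF) (sub_clo F) (adj_clo F) _
        fun _ _ hh => pl_congr fun x hx => hh x (sub_clo F x hx)
    rw [← e1]
    refine (sm_dom hF (sub_clo F') fun i x _ => smPhi_nonneg v i x).trans ?_
    by_cases hv : ∀ i : Fin v.length, v[i.1] ∈ F
    · refine (ev_congr _ _ _ fun h _ => ?_).le
      unfold pl
      refine Finset.prod_congr rfl fun i _ => ?_
      rw [sm_sum, sm_sum]
      unfold vh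
      rw [if_pos (hv i), if_pos (hF (hv i))]
    · push Not at hv
      obtain ⟨i, hi⟩ := hv
      have e2 : ev (FreeF F' (clo F')) (pl F (smPhi v)) = 0 := by
        rw [ev_congr _ (pl F (smPhi v)) (fun _ => 0)]
        · exact ev_const _ (nonempty_free _ _) 0
        · intro h _
          unfold pl
          refine Finset.prod_eq_zero (Finset.mem_univ i) ?_
          rw [sm_sum]
          unfold vh
          rw [if_neg hi]
      rw [e2]
      exact sm_nonneg (sub_clo F') fun i x _ => smPhi_nonneg v i x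
  · unfold ze
    by_cases hu : u ∈ F
    · have h1 := free_one (adj_clo F) (sub_clo F u hu)
      have h2 : ev (FreeF F (clo F)) (fun h => vh F h u)
          = ev (FreeF F (clo F)) (fun h => (h u : ℝ)) := by
        refine ev_congr _ _ _ fun h _ => ?_
        unfold vh
        rw [if_pos hu]
      rw [h2]
      unfold ev
      rw [h1, zero_div]
    · rw [ev_congr _ (fun h => vh F h u) (fun _ => 0)]
      · exact ev_const _ (nonempty_free _ _) 0
      · intro h _
        unfold vh
        rw [if_neg hu]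

end Vale.Agent.P153.F.Top
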