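import Vale.Agent.P153.F.Top.Stmt
import Vale.Agent.P145.PT.Grid

/-!
The families of thickenings of finite unions of grid squares.
-/

namespace Vale.Agent.P153.F.Top

open Filter Topology Set MeasureTheory
open Vale.Agent.P145.PT Vale.Agent.P153

theorem isClosed_gsq (g : ℝ) (q : ℤ × ℤ) : IsClosed (gsq g q) := by
  have : gsq g q = {z : ℝ × ℝ | g * q.1 ≤ z.1} ∩ ({z | z.1 ≤ g * (q.1 + 1)} ∩
      ({z | g * q.2 ≤ z.2} ∩ {z | z.2 ≤ g * (q.2 + 1)})) := by
    ext z; simp [gsq]
  rw [this]
  exact (isClosed_le continuous_const continuous_fst).inter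
    ((isClosed_le continuous_fst continuous_const).inter
      ((isClosed_le continuous_const continuous_snd).inter
        (isClosed_le continuous_snd continuous_const)))

theorem isBounded_gsq (g : ℝ) (q : ℤ × ℤ) : Bornology.IsBounded (gsq g q) := by
  rcases (gsq g q).eq_empty_or_nonempty with h | ⟨z, hz⟩
  · rw [h]; exact Bornology.isBounded_empty
  · refine (Metric.isBounded_closedBall (x := z) (r := g)).subset fun w hw => ?_
    rw [Metric.mem_closedBall]
    exact gsq_dist hw hz

theorem isCompact_gun {g : ℝ} {S : Set (ℤ × ℤ)} (hS : S.Finite) : IsCompact (gun g S) := by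
  have : gun g S = ⋃ q ∈ S, gsq g q := by ext z; simp [gun]
  rw [this]
  exact hS.isCompact_biUnion fun q _ =>
    Metric.isCompact_of_isClosed_isBounded (isClosed_gsq g q) (isBounded_gsq g q)

/-- The complement of a thickening is a union of squares. -/
theorem thickC_gun {g s : ℝ} (hs : 0 < s) (hsg : s < g / 2) (S : Set (ℤ × ℤ)) :
    ThickC (Metric.thickening s (gun g S)) :=
  ⟨g / 2 - s, by linarith, fun _ hx => exterior_square hs hsg S hx⟩

/-- Exterior squares of all small scales. -/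
theorem ThickC.cork {D : Set (ℝ × ℝ)} (h : ThickC D) (hb : Bornology.IsBounded D) :
    ∃ r₀ : ℝ, 0 < r₀ ∧ ∀ x : ℝ × ℝ, ∀ r : ℝ, 0 < r → dd D x ≤ r → r ≤ r₀ →
      ∃ z : ℝ × ℝ, dist z x ≤ 3 * r ∧ Disjoint (Metric.closedBall z r) D := by
  obtain ⟨ρ, hρ0, hρ⟩ := h
  have hne : (Dᶜ).Nonempty := compl_ne hb
  refine ⟨ρ, hρ0, fun x r hr hdr hrρ => ?_⟩
  obtain ⟨z₀, hz₀, hxz⟩ := (Metric.infDist_lt_iff hne (x := x) (r := 2 * r)).1 (by
    change dd D x < 2 * r; linarith)
  obtain ⟨c, hc, hcd⟩ := hρ z₀ hz₀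
  refine ⟨z₀ + (r / ρ) • (c - z₀), ?_, ?_⟩
  · have h1 : dist (z₀ + (r / ρ) • (c - z₀)) z₀ ≤ r := by
      rw [dist_eq_norm, add_sub_cancel_left, norm_smul, Real.norm_of_nonneg (by positivity)]
      rw [Metric.mem_closedBall, dist_comm, dist_eq_norm] at hc
      calc r / ρ * ‖c - z₀‖ ≤ r / ρ * ρ := mul_le_mul_of_nonneg_left hc (by positivity)
        _ = r := by field_simp
    have h2 := dist_triangle (z₀ + (r / ρ) • (c - z₀)) z₀ x
    rw [dist_comm z₀ x] at h2
    linarith
  · refine hcd.mono_left fun w hw => ?_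
    rw [Metric.mem_closedBall] at hw ⊢
    have h1 : dist (z₀ + (r / ρ) • (c - z₀)) c ≤ ρ - r := by
      have e : z₀ + (r / ρ) • (c - z₀) - c = (1 - r / ρ) • (z₀ - c) := by
        rw [sub_smul, one_smul, smul_sub, smul_sub]; abel
      have h3 : r / ρ ≤ 1 := by rw [div_le_one hρ0]; linarith
      rw [dist_eq_norm, e, norm_smul, Real.norm_of_nonneg (by linarith)]
      rw [Metric.mem_closedBall, dist_eq_norm] at hc
      calc (1 - r / ρ) * ‖z₀ - c‖ ≤ (1 - r / ρ) * ρ :=
            mul_le_mul_of_nonneg_left hc (by linarith)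
        _ = ρ - r := by field_simp
    have h2 := dist_triangle w (z₀ + (r / ρ) • (c - z₀)) c
    linarith

theorem nest_gun {g : ℝ} (hg : 0 < g) {S : Set (ℤ × ℤ)} (hS : S.Finite) :
    Nest 0 (g / 4) (fun s => Metric.thickening s (gun g S)) where
  lt := by linarith
  op := fun s _ => Metric.isOpen_thickening
  bdd := fun s _ => (isCompact_gun hS).isBounded.thickening
  thick := fun s hs => thickC_gun hs.1 (by linarith [hs.2]) S
  nest := fun s hs t ht hst => (Metric.closure_thickening_subset_cthickening s _).trans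
    (Metric.cthickening_subset_thickening' ht.1 hst _)
  exh := fun s hs K hK hKc => by
    rcases (gun g S).eq_empty_or_nonempty with he | hne
    · refine ⟨s / 2, ⟨by linarith [hs.1], by linarith [hs.1, hs.2]⟩, by linarith [hs.1], ?_⟩
      rw [he, Metric.thickening_empty] at hK ⊢
      exact hK
    rcases K.eq_empty_or_nonempty with hKe | hKne
    · exact ⟨s / 2, ⟨by linarith [hs.1], by linarith [hs.1, hs.2]⟩, by linarith [hs.1],
        by rw [hKe]; exact empty_subset _⟩
    obtain ⟨z, hz, hmax⟩ := hKc.exists_isMaxOn hKne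
      (Metric.continuous_infDist_pt (gun g S)).continuousOn
    have h1 : Metric.infDist z (gun g S) < s := by
      obtain ⟨y, hy, hzy⟩ := Metric.mem_thickening_iff.1 (hK hz)
      exact lt_of_le_of_lt (Metric.infDist_le_dist_of_mem hy) hzy
    have h0 : 0 ≤ Metric.infDist z (gun g S) := Metric.infDist_nonneg
    refine ⟨(Metric.infDist z (gun g S) + s) / 2, ⟨by linarith [hs.1], by linarith [hs.2]⟩,
      by linarith, fun w hw => ?_⟩
    have h2 : Metric.infDist w (gun g S) ≤ Metric.infDist z (gun g S) := hmax hw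
    obtain ⟨y, hy, hwy⟩ := (Metric.infDist_lt_iff hne (x := w)
      (r := (Metric.infDist z (gun g S) + s) / 2)).1 (by linarith)
    exact Metric.mem_thickening_iff.2 ⟨y, hy, hwy⟩

theorem gun_ball {g : ℝ} {S : Set (ℤ × ℤ)} (hS : S.Finite) :
    ∃ R : ℝ, ∀ s ∈ Ioo 0 (g / 4), Metric.thickening s (gun g S) ⊆ Metric.ball 0 R := by
  obtain ⟨R, hR⟩ := (Metric.isBounded_iff_subset_ball (0 : ℝ × ℝ)).1
    ((isCompact_gun (g := g) hS).isBounded.thickening (δ := g / 4))
  exact ⟨R, fun s hs => (Metric.thickening_mono hs.2.le _).trans hR⟩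

end Vale.Agent.P153.F.Top
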